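import Vale.Agent.P050.H546.GWalk

/-!
# P050, [SUB]: the kernel of a subdivided edge with a multiplied vertex

Attaching the end of a natural walk (`att` with `zp (nb Q) j`); the law of the positions
`0, i, i + 2, i + 2 + j` of a natural walk, its entropy, and the mean logarithm of the kernel.
-/

set_option autoImplicit false
set_option linter.unusedSectionVars false

namespace Vale.Agent.P050.H648.Sub

open Finset Vale.Agent.P050.Cart Vale.Agent.P050.M18 Vale.Agent.P050.H546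

section walk

variable {U : Type} [Fintype U] [DecidableEq U] {Q : U × U → ℝ}

theorem zp_add' {E : Type} [Fintype E] [DecidableEq E] (C : E → E → ℝ) (i j : ℕ) (a b : E) :
    zp C (i + j) a b = ∑ c, zp C i a c * zp C j c b := by
  induction j generalizing b with
  | zero => simp [zp]
  | succ j ih =>
    have h1 : zp C (i + (j + 1)) a b = ∑ d, zp C (i + j) a d * C d b := rfl
    have h2 : ∀ c, zp C (j + 1) c b = ∑ d, zp C j c d * C d b := fun c => rfl
    rw [h1]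
    simp only [ih, h2, Finset.sum_mul, Finset.mul_sum]
    rw [Finset.sum_comm]
    refine Finset.sum_congr rfl fun c _ => Finset.sum_congr rfl fun d _ => ?_
    ring

variable (hE : Edge Q)
include hE

theorem EE_snd (j : ℕ) (z : U) : ∑ x, EE Q j (x, z) = mm Q z := by
  rw [← EE_fst hE j z]
  exact Finset.sum_congr rfl fun x _ => EE_sym hE j x z

theorem mar_EE_snd (j : ℕ) : mar (EE Q j) (fun x => x.2) = mm Q := by
  funext z
  have h := mar_snd (EE Q j) (fun x => x.1) (fun x => x.2) z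
  rw [← EE_snd hE j z, ← h]
  exact Finset.sum_congr rfl fun x _ => mar_id (EE Q j) (x, z)

theorem mar_EE_fst (j : ℕ) : mar (EE Q j) (fun x => x.1) = mm Q := by
  funext z
  have h := mar_fst (EE Q j) (fun x => x.1) (fun x => x.2) z
  rw [← EE_fst hE j z, ← h]
  exact Finset.sum_congr rfl fun x _ => mar_id (EE Q j) (z, x)

variable {Ω : Type} [Fintype Ω] {P : Ω → ℝ} (nn : ∀ ω, 0 ≤ P ω) {f : Ω → U}
  (hf : mar P f = mm Q)

include nn hf

theorem aw_one (j : ℕ) (ω : Ω) (h : P ω ≠ 0) : ∑ z, zp (nb Q) j (f ω) z = 1 :=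
  kp_one hE j (by rw [← hf]; exact mar_ne_zero nn f h)

theorem aw_law (j : ℕ) : mar (att P f (zp (nb Q) j)) (fun x => (f x.1, x.2)) = EE Q j := by
  funext ⟨x, z⟩
  rw [mar_att (P := P) (f := f) (K := zp (nb Q) j) f (fun y => y) (fun _ => rfl), hf]
  rfl

theorem aw_snd (j : ℕ) : mar (att P f (zp (nb Q) j)) (fun x => x.2) = mm Q := by
  rw [← mar_EE_snd hE j, ← aw_law hE nn hf j]
  funext z
  rw [mar_mar]

theorem aw_law2 {g : Ω → U} {i : ℕ} (hg : mar P (fun ω => (g ω, f ω)) = EE Q i) (j : ℕ) :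
    mar (att P f (zp (nb Q) j)) (fun x => (g x.1, x.2)) = EE Q (i + j) := by
  funext ⟨x, z⟩
  rw [att_mar2 P f (zp (nb Q) j) g x z, hg]
  show ∑ d, mm Q x * zp (nb Q) i x d * zp (nb Q) j d z = mm Q x * zp (nb Q) (i + j) x z
  rw [zp_add', Finset.mul_sum]
  exact Finset.sum_congr rfl fun d _ => by ring

theorem aw_ent (j : ℕ) {α : Type} [Fintype α] (g : Ω → α) (k : α → U)
    (hk : ∀ ω, f ω = k (g ω)) :
    ent (att P f (zp (nb Q) j)) (fun x => (g x.1, x.2)) = ent P g + (hh Q j - aQ Q) := by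
  have h := ent_att (P := P) (f := f) (K := zp (nb Q) j) nn (kp_nn hE j) (aw_one hE nn hf j)
    g k hk
  have h1 : ent P f = aQ Q := by
    unfold aQ
    refine ent_law fun a => ?_
    rw [hf, mar_id]
  have h2 : ent (att P f (zp (nb Q) j)) (fun x => (f x.1, x.2)) = hh Q j := by
    unfold hh
    refine ent_law fun a => ?_
    rw [aw_law hE nn hf j, mar_id]
  rw [h1, h2] at h
  linarith

end walk

section kernel

variable {U : Type} [Fintype U] [DecidableEq U]

/-- the kernel of an edge: a walk of length `i`, then `1 + c` cherries with the same ends, then a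
walk of length `j` -/
def Wk (A : U → U → ℝ) (i j c : ℕ) (x y : U) : ℝ :=
  ∑ z : U × U, zp A i x z.1 * zp A 2 z.1 z.2 ^ (1 + c) * zp A j y z.2

/-- the positions `0, i, i + 2, i + 2 + j` of a natural walk -/
noncomputable def P4 (Q : U × U → ℝ) (i j : ℕ) : ((U × U) × U) × U → ℝ :=
  att (att (EE Q i) (fun x => x.2) (zp (nb Q) 2)) (fun x => x.2) (zp (nb Q) j)

variable {Q : U × U → ℝ} (hE : Edge Q)
include hE

theorem P3_nn (i : ℕ) (x) : 0 ≤ att (EE Q i) (fun x => x.2) (zp (nb Q) 2) x :=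
  att_nonneg (EE_nn hE i) (kp_nn hE 2) x

theorem P3_tot (i : ℕ) : ∑ x, att (EE Q i) (fun x => x.2) (zp (nb Q) 2) x = 1 :=
  att_total (EE_tot hE i) (aw_one hE (EE_nn hE i) (mar_EE_snd hE i) 2)

theorem P3_snd (i : ℕ) : mar (att (EE Q i) (fun x => x.2) (zp (nb Q) 2)) (fun x => x.2) = mm Q :=
  aw_snd hE (EE_nn hE i) (mar_EE_snd hE i) 2

theorem P4_nn (i j : ℕ) (x) : 0 ≤ P4 Q i j x := att_nonneg (P3_nn hE i) (kp_nn hE j) x

theorem P4_tot (i j : ℕ) : ∑ x, P4 Q i j x = 1 :=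
  att_total (P3_tot hE i) (aw_one hE (P3_nn hE i) (P3_snd hE i) j)

theorem P4_fst (i j : ℕ) {α : Type} (g : (U × U) × U → α) :
    mar (P4 Q i j) (fun x => g x.1) = mar (att (EE Q i) (fun x => x.2) (zp (nb Q) 2)) g :=
  mar_att_fst (aw_one hE (P3_nn hE i) (P3_snd hE i) j) g

theorem P4_01 (i j : ℕ) : mar (P4 Q i j) (fun x => x.1.1) = EE Q i := by
  rw [P4_fst hE i j (fun x => x.1)]
  have h := mar_att_fst (P := EE Q i) (f := fun x => x.2) (K := zp (nb Q) 2)
    (aw_one hE (EE_nn hE i) (mar_EE_snd hE i) 2) (fun x => x)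
  rw [h]
  funext a
  rw [mar_id]

theorem P4_12 (i j : ℕ) : mar (P4 Q i j) (fun x => (x.1.1.2, x.1.2)) = EE Q 2 := by
  rw [P4_fst hE i j (fun x => (x.1.2, x.2))]
  exact aw_law hE (EE_nn hE i) (mar_EE_snd hE i) 2

theorem P4_23 (i j : ℕ) : mar (P4 Q i j) (fun x => (x.2, x.1.2)) = EE Q j :=
  EE_swap hE (P := P4 Q i j) (f := fun x => x.1.2) (g := fun x => x.2)
    (aw_law hE (P3_nn hE i) (P3_snd hE i) j)

theorem P4_03 (i j : ℕ) : mar (P4 Q i j) (fun x => (x.1.1.1, x.2)) = EE Q (i + 2 + j) := by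
  refine aw_law2 hE (P3_nn hE i) (P3_snd hE i) (g := fun x => x.1.1) (i := i + 2) ?_ j
  refine aw_law2 hE (EE_nn hE i) (mar_EE_snd hE i) (g := fun x => x.1) (i := i) ?_ 2
  funext a
  exact mar_id (EE Q i) a

theorem P4_ent (i j : ℕ) : ent (P4 Q i j) (fun x => x) =
    hh Q i + (hh Q 2 - aQ Q) + (hh Q j - aQ Q) := by
  have h1 := aw_ent hE (P3_nn hE i) (P3_snd hE i) j (fun x => x) (fun x => x.2) (fun _ => rfl)
  have h2 := aw_ent hE (EE_nn hE i) (mar_EE_snd hE i) 2 (fun x => x) (fun x => x.2)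
    (fun _ => rfl)
  have h3 : ent (EE Q i) (fun x => x) = hh Q i := rfl
  have h4 : ent (P4 Q i j) (fun x => x) = ent (att (att (EE Q i) (fun x => x.2) (zp (nb Q) 2))
      (fun x => x.2) (zp (nb Q) j)) (fun x => ((fun x => x) x.1, x.2)) := rfl
  have h5 : ent (att (EE Q i) (fun x => x.2) (zp (nb Q) 2)) (fun x => x) =
      ent (att (EE Q i) (fun x => x.2) (zp (nb Q) 2)) (fun x => ((fun x => x) x.1, x.2)) := rfl
  rw [h4, h1, h5, h2, h3]

/-- [S2] -/
theorem kernel (hV : GValStmt) {A : U → U → ℝ} (hA : ∀ x y, 0 ≤ A x y)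
    (hQA : ∀ x y, Q (x, y) ≠ 0 → A x y = 1) (i j c : ℕ) :
    (∀ x, EE Q (i + 2 + j) x ≠ 0 → Wk A i j c x.1 x.2 ≠ 0) ∧
    ((i : ℝ) + 2 + j) * hQ Q - ((i : ℝ) + 1 + j) * aQ Q - hh Q (i + 2 + j) +
        c * (2 * hQ Q - aQ Q - hh Q 2) ≤
      ∑ x, EE Q (i + 2 + j) x * Real.log (Wk A i j c x.1 x.2) := by
  have hz : ∀ n x y, 0 ≤ zp A n x y := fun n x y => zp_nonneg hA n x y
  obtain ⟨vi, vi'⟩ := hV U A Q hE hA hQA i
  obtain ⟨v2, v2'⟩ := hV U A Q hE hA hQA 2
  obtain ⟨vj, vj'⟩ := hV U A Q hE hA hQA j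
  have n1 : ∀ ω, P4 Q i j ω ≠ 0 → zp A i ω.1.1.1 ω.1.1.2 ≠ 0 := by
    intro ω h
    have h1 := mar_ne_zero (P4_nn hE i j) (fun x => x.1.1) h
    rw [P4_01 hE] at h1
    exact vi _ h1
  have n2 : ∀ ω, P4 Q i j ω ≠ 0 → zp A 2 ω.1.1.2 ω.1.2 ≠ 0 := by
    intro ω h
    have h1 := mar_ne_zero (P4_nn hE i j) (fun x => (x.1.1.2, x.1.2)) h
    rw [P4_12 hE] at h1
    exact v2 _ h1
  have n3 : ∀ ω, P4 Q i j ω ≠ 0 → zp A j ω.2 ω.1.2 ≠ 0 := by
    intro ω h
    have h1 := mar_ne_zero (P4_nn hE i j) (fun x => (x.2, x.1.2)) h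
    rw [P4_23 hE] at h1
    exact vj _ h1
  set w : ((U × U) × U) × U → ℝ := fun ω =>
    zp A i ω.1.1.1 ω.1.1.2 * zp A 2 ω.1.1.2 ω.1.2 ^ (1 + c) * zp A j ω.2 ω.1.2 with hw
  have key := ent_log_cond (P4_nn hE i j) (P4_tot hE i j) (fun ω => ω)
    (fun ω => (ω.1.1.1, ω.2)) w (fun b => Wk A i j c b.1 b.2)
    (fun ω => mul_nonneg (mul_nonneg (hz _ _ _) (pow_nonneg (hz _ _ _) _)) (hz _ _ _))
    (fun b => by
      obtain ⟨x, y⟩ := b
      have hr : ∀ F : ((U × U) × U) × U → ℝ,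
          ∑ ω, F ω = ∑ x, ∑ α, ∑ β, ∑ y, F (((x, α), β), y) := by
        intro F
        simp only [Fintype.sum_prod_type]
      unfold mar
      rw [hr, Finset.sum_eq_single x]
      · unfold Wk
        rw [Fintype.sum_prod_type]
        refine Finset.sum_congr rfl fun α _ => Finset.sum_congr rfl fun β _ => ?_
        rw [Finset.sum_eq_single y]
        · simp [hw]
        · intro b _ hb
          rw [if_neg]
          simp only [Prod.mk.injEq, not_and]
          exact fun _ => hb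
        · intro h
          exact absurd (mem_univ _) h
      · intro b _ hb
        refine Finset.sum_eq_zero fun α _ => Finset.sum_eq_zero fun β _ =>
          Finset.sum_eq_zero fun y' _ => ?_
        rw [if_neg]
        simp only [Prod.mk.injEq, not_and]
        exact fun h => absurd h hb
      · intro h
        exact absurd (mem_univ _) h)
    (fun ω h => mul_ne_zero (mul_ne_zero (n1 ω h) (pow_ne_zero _ (n2 ω h))) (n3 ω h))
  obtain ⟨k1, k2⟩ := key
  have e4 : ∑ ω, P4 Q i j ω * Real.log (w ω) =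
      ∑ x, EE Q i x * Real.log (zp A i x.1 x.2) +
      (1 + c) * ∑ x, EE Q 2 x * Real.log (zp A 2 x.1 x.2) +
      ∑ x, EE Q j x * Real.log (zp A j x.1 x.2) := by
    rw [← P4_01 hE i j, sum_mar (P4 Q i j) (fun x => x.1.1)
      (fun x => Real.log (zp A i x.1 x.2)), ← P4_12 hE i j,
      sum_mar (P4 Q i j) (fun x => (x.1.1.2, x.1.2)) (fun x => Real.log (zp A 2 x.1 x.2))]
    have h23 : ∑ x, EE Q j x * Real.log (zp A j x.1 x.2) =
        ∑ ω, P4 Q i j ω * Real.log (zp A j ω.2 ω.1.2) := by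
      rw [← P4_23 hE i j,
        sum_mar (P4 Q i j) (fun x => (x.2, x.1.2)) (fun x => Real.log (zp A j x.1 x.2))]
    rw [h23, Finset.mul_sum, ← Finset.sum_add_distrib, ← Finset.sum_add_distrib]
    refine Finset.sum_congr rfl fun ω _ => ?_
    by_cases h0 : P4 Q i j ω = 0
    · rw [h0]; ring
    · have hl : Real.log (w ω) = Real.log (zp A i ω.1.1.1 ω.1.1.2) +
          (1 + c) * Real.log (zp A 2 ω.1.1.2 ω.1.2) + Real.log (zp A j ω.2 ω.1.2) := by
        rw [hw]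
        simp only
        rw [Real.log_mul (mul_ne_zero (n1 ω h0) (pow_ne_zero _ (n2 ω h0))) (n3 ω h0),
          Real.log_mul (n1 ω h0) (pow_ne_zero _ (n2 ω h0)), Real.log_pow]
        push_cast
        ring
      rw [hl]
      ring
  have e5 : ent (P4 Q i j) (fun ω => (ω.1.1.1, ω.2)) = hh Q (i + 2 + j) := by
    unfold hh
    refine ent_law fun a => ?_
    rw [P4_03 hE i j, mar_id]
  have e6 : ∑ ω, P4 Q i j ω * Real.log (Wk A i j c ω.1.1.1 ω.2) =
      ∑ x, EE Q (i + 2 + j) x * Real.log (Wk A i j c x.1 x.2) := by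
    rw [← P4_03 hE i j,
      sum_mar (P4 Q i j) (fun x => (x.1.1.1, x.2)) (fun x => Real.log (Wk A i j c x.1 x.2))]
  refine ⟨?_, ?_⟩
  · intro x hx
    rw [← P4_03 hE i j] at hx
    unfold mar at hx
    obtain ⟨ω, -, hω⟩ := Finset.exists_ne_zero_of_sum_ne_zero hx
    have h3 : (ω.1.1.1, ω.2) = x := by
      by_contra hne
      exact hω (if_neg hne)
    rw [if_pos h3] at hω
    have h4 := k1 ω hω
    rw [← h3]
    exact h4
  · have k3 : ent (P4 Q i j) (fun ω => ω) + ∑ ω, P4 Q i j ω * Real.log (w ω) ≤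
        ent (P4 Q i j) (fun ω => (ω.1.1.1, ω.2)) +
          ∑ ω, P4 Q i j ω * Real.log (Wk A i j c ω.1.1.1 ω.2) := k2
    rw [P4_ent hE, e4, e5, e6] at k3
    push_cast at v2'
    have hc : (0 : ℝ) ≤ c := Nat.cast_nonneg c
    have hc2 : (c : ℝ) * (aQ Q + 2 * (hQ Q - aQ Q)) ≤
        c * (hh Q 2 + ∑ x, EE Q 2 x * Real.log (zp A 2 x.1 x.2)) :=
      mul_le_mul_of_nonneg_left v2' hc
    nlinarith [k3, vi', v2', vj', hc2]

end kernel

end Vale.Agent.P050.H648.Sub
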