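import Vale.Agent.P050.H648.Sub.Ker
import Vale.Agent.P050.H936.Spec2
import Vale.Agent.P050.H23.GI

/-!
# P050, [SUB] v2, row [K2]: the mean logarithm of the weight of a series-parallel part
-/

set_option autoImplicit false
set_option linter.unusedSectionVars false

namespace Vale.Agent.P050.H648.Sub

open Finset Vale.Agent.P050.Cart Vale.Agent.P050.M18 Vale.Agent.P050.H546 Vale.Agent.P050.H936

section

variable {U : Type} [Fintype U] [DecidableEq U] {Q : U × U → ℝ} (hE : Edge Q)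
include hE

theorem ent_EE1 (j : ℕ) : ent (EE Q j) (fun x => x.1) = aQ Q := by
  unfold aQ
  refine ent_law fun a => ?_
  rw [mar_EE_fst hE, mar_id]

/-- series -/
theorem ser_step {w1 w2 : U → U → ℝ} (h1 : ∀ x y, 0 ≤ w1 x y) (h2 : ∀ x y, 0 ≤ w2 x y)
    {l1 l2 : ℕ} (s1 : ∀ x, EE Q l1 x ≠ 0 → w1 x.1 x.2 ≠ 0)
    (s2 : ∀ x, EE Q l2 x ≠ 0 → w2 x.1 x.2 ≠ 0) :
    (∀ x, EE Q (l1 + l2) x ≠ 0 → ∑ z, w1 x.1 z * w2 z x.2 ≠ 0) ∧
    hh Q l1 + hh Q l2 - aQ Q + ∑ x, EE Q l1 x * Real.log (w1 x.1 x.2) +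
      ∑ x, EE Q l2 x * Real.log (w2 x.1 x.2) ≤
      hh Q (l1 + l2) + ∑ x, EE Q (l1 + l2) x * Real.log (∑ z, w1 x.1 z * w2 z x.2) := by
  set P := att (EE Q l1) (fun x => x.2) (zp (nb Q) l2) with hPd
  have hP : ∀ x, 0 ≤ P x := att_nonneg (EE_nn hE l1) (kp_nn hE l2)
  have hone := aw_one hE (EE_nn hE l1) (mar_EE_snd hE l1) l2
  have hP1 : ∑ x, P x = 1 := att_total (EE_tot hE l1) hone
  have m01 : mar P (fun x => x.1) = EE Q l1 := by
    have h := mar_att_fst (P := EE Q l1) (f := fun x => x.2) (K := zp (nb Q) l2) hone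
      (fun x => x)
    rw [hPd, h]
    funext a
    rw [mar_id]
  have m12 : mar P (fun x => (x.1.2, x.2)) = EE Q l2 :=
    aw_law hE (EE_nn hE l1) (mar_EE_snd hE l1) l2
  have m02 : mar P (fun x => (x.1.1, x.2)) = EE Q (l1 + l2) := by
    refine aw_law2 hE (EE_nn hE l1) (mar_EE_snd hE l1) (g := fun x => x.1) (i := l1) ?_ l2
    funext a
    exact mar_id (EE Q l1) a
  have he : ent P (fun x => x) = hh Q l1 + (hh Q l2 - aQ Q) :=
    aw_ent hE (EE_nn hE l1) (mar_EE_snd hE l1) l2 (fun x => x) (fun x => x.2) (fun _ => rfl)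
  have n1 : ∀ ω, P ω ≠ 0 → w1 ω.1.1 ω.1.2 ≠ 0 := by
    intro ω h
    have h' := mar_ne_zero hP (fun x => x.1) h
    rw [m01] at h'
    exact s1 _ h'
  have n2 : ∀ ω, P ω ≠ 0 → w2 ω.1.2 ω.2 ≠ 0 := by
    intro ω h
    have h' := mar_ne_zero hP (fun x => (x.1.2, x.2)) h
    rw [m12] at h'
    exact s2 _ h'
  have key := ent_log_cond hP hP1 (fun ω => ω) (fun ω => (ω.1.1, ω.2))
    (fun ω => w1 ω.1.1 ω.1.2 * w2 ω.1.2 ω.2) (fun b => ∑ z, w1 b.1 z * w2 z b.2)
    (fun ω => mul_nonneg (h1 _ _) (h2 _ _))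
    (fun b => by
      obtain ⟨x, y⟩ := b
      have hr : ∀ F : (U × U) × U → ℝ, ∑ ω, F ω = ∑ x, ∑ z, ∑ y, F ((x, z), y) := by
        intro F
        simp only [Fintype.sum_prod_type]
      unfold mar
      symm
      rw [hr, Finset.sum_eq_single x]
      · refine Finset.sum_congr rfl fun z _ => ?_
        rw [Finset.sum_eq_single y]
        · simp
        · intro b _ hb
          rw [if_neg]
          simp only [Prod.mk.injEq, not_and]
          exact fun _ => hb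
        · intro h
          exact absurd (mem_univ _) h
      · intro b _ hb
        refine Finset.sum_eq_zero fun z _ => Finset.sum_eq_zero fun y' _ => ?_
        rw [if_neg]
        simp only [Prod.mk.injEq, not_and]
        exact fun h => absurd h hb
      · intro h
        exact absurd (mem_univ _) h)
    (fun ω h => mul_ne_zero (n1 ω h) (n2 ω h))
  obtain ⟨k1, k2⟩ := key
  have e4 : ∑ ω, P ω * Real.log (w1 ω.1.1 ω.1.2 * w2 ω.1.2 ω.2) =
      ∑ x, EE Q l1 x * Real.log (w1 x.1 x.2) + ∑ x, EE Q l2 x * Real.log (w2 x.1 x.2) := by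
    have t1 : ∑ x, EE Q l1 x * Real.log (w1 x.1 x.2) =
        ∑ ω, P ω * Real.log (w1 ω.1.1 ω.1.2) := by
      rw [← m01, sum_mar P (fun x => x.1) (fun x => Real.log (w1 x.1 x.2))]
    have t2 : ∑ x, EE Q l2 x * Real.log (w2 x.1 x.2) =
        ∑ ω, P ω * Real.log (w2 ω.1.2 ω.2) := by
      rw [← m12, sum_mar P (fun x => (x.1.2, x.2)) (fun x => Real.log (w2 x.1 x.2))]
    rw [t1, t2, ← Finset.sum_add_distrib]
    refine Finset.sum_congr rfl fun ω _ => ?_
    by_cases h0 : P ω = 0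
    · rw [h0]; ring
    · rw [Real.log_mul (n1 ω h0) (n2 ω h0)]
      ring
  have e5 : ent P (fun ω => (ω.1.1, ω.2)) = hh Q (l1 + l2) := by
    unfold hh
    refine ent_law fun a => ?_
    rw [m02, mar_id]
  have e6 : ∑ ω, P ω * Real.log (∑ z, w1 ω.1.1 z * w2 z ω.2) =
      ∑ x, EE Q (l1 + l2) x * Real.log (∑ z, w1 x.1 z * w2 z x.2) := by
    rw [← m02, sum_mar P (fun x => (x.1.1, x.2)) (fun x => Real.log (∑ z, w1 x.1 z * w2 z x.2))]
  refine ⟨?_, ?_⟩
  · intro x hx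
    rw [← m02] at hx
    unfold mar at hx
    obtain ⟨ω, -, hω⟩ := Finset.exists_ne_zero_of_sum_ne_zero hx
    have h3 : (ω.1.1, ω.2) = x := by
      by_contra hne
      exact hω (if_neg hne)
    rw [if_pos h3] at hω
    have h4 := k1 ω hω
    rw [← h3]
    exact h4
  · have k3 : ent P (fun ω => ω) + ∑ ω, P ω * Real.log (w1 ω.1.1 ω.1.2 * w2 ω.1.2 ω.2) ≤
        ent P (fun ω => (ω.1.1, ω.2)) +
          ∑ ω, P ω * Real.log (∑ z, w1 ω.1.1 z * w2 z ω.2) := k2
    rw [he, e4, e5, e6] at k3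
    linarith

/-- a part which hangs on the first terminal -/
theorem hang_step {w : U → U → ℝ} (h1 : ∀ x y, 0 ≤ w x y) {l : ℕ}
    (s1 : ∀ x, EE Q l x ≠ 0 → w x.1 x.2 ≠ 0) :
    (∀ x, mm Q x ≠ 0 → ∑ z, w x z ≠ 0) ∧
    hh Q l - aQ Q + ∑ x, EE Q l x * Real.log (w x.1 x.2) ≤
      ∑ x, mm Q x * Real.log (∑ z, w x z) := by
  have key := ent_log_cond (EE_nn hE l) (EE_tot hE l) (fun ω => ω) (fun ω => ω.1)
    (fun ω => w ω.1 ω.2) (fun b => ∑ z, w b z) (fun ω => h1 _ _)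
    (fun b => by
      unfold mar
      symm
      rw [Fintype.sum_prod_type, Finset.sum_eq_single b]
      · exact Finset.sum_congr rfl fun z _ => by simp
      · intro b' _ hb
        exact Finset.sum_eq_zero fun z _ => if_neg hb
      · intro h
        exact absurd (mem_univ _) h)
    (fun ω h => s1 ω h)
  obtain ⟨k1, k2⟩ := key
  refine ⟨?_, ?_⟩
  · intro x hx
    rw [← EE_fst hE l x] at hx
    obtain ⟨z, -, hz⟩ := Finset.exists_ne_zero_of_sum_ne_zero hx
    exact k1 (x, z) hz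
  · have e1 : ∑ x, mm Q x * Real.log (∑ z, w x z) =
        ∑ ω, EE Q l ω * Real.log (∑ z, w ω.1 z) := by
      rw [← mar_EE_fst hE l, sum_mar (EE Q l) (fun x => x.1) (fun x => Real.log (∑ z, w x z))]
    have k3 : ent (EE Q l) (fun ω => ω) + ∑ ω, EE Q l ω * Real.log (w ω.1 ω.2) ≤
        ent (EE Q l) (fun ω => ω.1) + ∑ ω, EE Q l ω * Real.log (∑ z, w ω.1 z) := k2
    rw [ent_EE1 hE] at k3
    have e2 : ent (EE Q l) (fun ω => ω) = hh Q l := rfl
    rw [e2] at k3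
    rw [e1]
    linarith

end

/-- **[K2]** -/
theorem ker2 : Ker2Stmt := by
  intro U _ _ A Q hE hA hQA μ p
  obtain ⟨-, hle, hmono, -⟩ := H23.gInf U Q hE
  have hmono' : ∀ i j, i ≤ j → hh Q i ≤ hh Q j := fun i j h => monotone_nat_of_le_succ hmono h
  induction p with
  | edge =>
    intro _
    have h1 : EE Q 1 = Q := H23.EE_one hE
    have h2 : hh Q 1 = hQ Q := H23.hh_one hE
    refine ⟨hA, ?_, ?_⟩
    · intro x hx
      have hx' : EE Q 1 x ≠ 0 := hx
      rw [h1] at hx'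
      show A x.1 x.2 ≠ 0
      rw [hQA x.1 x.2 hx']
      exact one_ne_zero
    · show (((1 : ℕ) : ℝ)) * hQ Q - (2 * ((1 : ℕ) : ℝ) - ((0 : ℕ) : ℝ) - 2) * aQ Q - hh Q 1 +
        ((0 : ℕ) : ℝ) * (2 * aQ Q - hh Q μ) ≤ ∑ x, EE Q 1 x * Real.log (A x.1 x.2)
      have h3 : ∑ x, EE Q 1 x * Real.log (A x.1 x.2) = 0 := by
        refine Finset.sum_eq_zero fun x _ => ?_
        rw [h1]
        by_cases h0 : Q x = 0
        · rw [h0, zero_mul]
        · rw [hQA x.1 x.2 h0, Real.log_one, mul_zero]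
      rw [h3, h2]
      push_cast
      linarith
  | ser p q ihp ihq =>
    rintro ⟨op, oq⟩
    obtain ⟨p1, p2, p3⟩ := ihp op
    obtain ⟨q1, q2, q3⟩ := ihq oq
    obtain ⟨k1, k2⟩ := ser_step hE p1 q1 p2 q2
    refine ⟨fun x y => Finset.sum_nonneg fun z _ => mul_nonneg (p1 _ _) (q1 _ _), k1, ?_⟩
    have hsum : ∑ x, EE Q (SP.ser p q).len x * Real.log ((SP.ser p q).wt A x.1 x.2) =
        ∑ x, EE Q (p.len + q.len) x * Real.log (∑ z, p.wt A x.1 z * q.wt A z x.2) := rfl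
    have hlen : hh Q (SP.ser p q).len = hh Q (p.len + q.len) := rfl
    rw [hsum, hlen]
    show ((p.size + q.size : ℕ) : ℝ) * hQ Q -
      (2 * ((p.size + q.size : ℕ) : ℝ) - ((p.num + q.num + 1 : ℕ) : ℝ) - 2) * aQ Q -
      hh Q (p.len + q.len) + ((p.gain μ + q.gain μ : ℕ) : ℝ) * (2 * aQ Q - hh Q μ) ≤ _
    push_cast
    linarith
  | par p q ihp ihq =>
    rintro ⟨op, oq, hl, h2⟩
    obtain ⟨p1, p2, p3⟩ := ihp op
    obtain ⟨q1, q2, q3⟩ := ihq oq
    rw [← hl] at q2 q3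
    refine ⟨fun x y => mul_nonneg (p1 _ _) (q1 _ _), fun x hx => mul_ne_zero (p2 x hx) (q2 x hx),
      ?_⟩
    have hsum : ∑ x, EE Q (SP.par p q).len x * Real.log ((SP.par p q).wt A x.1 x.2) =
        ∑ x, EE Q p.len x * Real.log (p.wt A x.1 x.2) +
          ∑ x, EE Q p.len x * Real.log (q.wt A x.1 x.2) := by
      rw [← Finset.sum_add_distrib]
      refine Finset.sum_congr rfl fun x _ => ?_
      show EE Q p.len x * Real.log (p.wt A x.1 x.2 * q.wt A x.1 x.2) = _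
      by_cases h0 : EE Q p.len x = 0
      · rw [h0]; ring
      · rw [Real.log_mul (p2 x h0) (q2 x h0)]
        ring
    rw [hsum]
    show ((p.size + q.size : ℕ) : ℝ) * hQ Q -
      (2 * ((p.size + q.size : ℕ) : ℝ) - ((p.num + q.num : ℕ) : ℝ) - 2) * aQ Q -
      hh Q p.len + ((p.gain μ + q.gain μ + (if p.len ≤ μ then 1 else 0) : ℕ) : ℝ) *
        (2 * aQ Q - hh Q μ) ≤ _
    have h3 : ((if p.len ≤ μ then 1 else 0 : ℕ) : ℝ) * (2 * aQ Q - hh Q μ) ≤
        2 * aQ Q - hh Q p.len := by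
      split_ifs with h
      · have := hmono' _ _ h
        push_cast
        linarith
      · have := hle p.len
        push_cast
        linarith
    push_cast at h3 ⊢
    linarith
  | hang p q ihp ihq =>
    rintro ⟨op, oq⟩
    obtain ⟨p1, p2, p3⟩ := ihp op
    obtain ⟨q1, q2, q3⟩ := ihq oq
    obtain ⟨k1, k2⟩ := hang_step hE q1 q2
    have hmm : ∀ x, EE Q p.len x ≠ 0 → ∑ z, q.wt A x.1 z ≠ 0 := by
      intro x hx
      refine k1 x.1 ?_
      rw [← mar_EE_fst hE p.len]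
      exact mar_ne_zero (EE_nn hE p.len) (fun x => x.1) hx
    refine ⟨fun x y => mul_nonneg (p1 _ _) (Finset.sum_nonneg fun z _ => q1 _ _),
      fun x hx => mul_ne_zero (p2 x hx) (hmm x hx), ?_⟩
    have hsum : ∑ x, EE Q (SP.hang p q).len x * Real.log ((SP.hang p q).wt A x.1 x.2) =
        ∑ x, EE Q p.len x * Real.log (p.wt A x.1 x.2) +
          ∑ x, mm Q x * Real.log (∑ z, q.wt A x z) := by
      rw [← mar_EE_fst hE p.len, sum_mar (EE Q p.len) (fun x => x.1)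
        (fun x => Real.log (∑ z, q.wt A x z)), ← Finset.sum_add_distrib]
      refine Finset.sum_congr rfl fun x _ => ?_
      show EE Q p.len x * Real.log (p.wt A x.1 x.2 * ∑ z, q.wt A x.1 z) = _
      by_cases h0 : EE Q p.len x = 0
      · rw [h0]; ring
      · rw [Real.log_mul (p2 x h0) (hmm x h0)]
        ring
    rw [hsum]
    show ((p.size + q.size : ℕ) : ℝ) * hQ Q -
      (2 * ((p.size + q.size : ℕ) : ℝ) - ((p.num + q.num + 1 : ℕ) : ℝ) - 2) * aQ Q -
      hh Q p.len + ((p.gain μ + q.gain μ : ℕ) : ℝ) * (2 * aQ Q - hh Q μ) ≤ _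
    push_cast
    linarith
  | rev p ihp =>
    intro op
    obtain ⟨p1, p2, p3⟩ := ihp op
    refine ⟨fun x y => p1 y x, ?_, ?_⟩
    · intro x hx
      have h1 : EE Q p.len (x.2, x.1) ≠ 0 := by
        rw [EE_sym hE]
        exact hx
      exact p2 (x.2, x.1) h1
    · have hsum : ∑ x, EE Q (SP.rev p).len x * Real.log ((SP.rev p).wt A x.1 x.2) =
          ∑ x, EE Q p.len x * Real.log (p.wt A x.1 x.2) := by
        refine Fintype.sum_equiv (Equiv.prodComm U U) _ _ fun x => ?_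
        show EE Q p.len x * Real.log (p.wt A x.2 x.1) =
          EE Q p.len (x.2, x.1) * Real.log (p.wt A x.2 x.1)
        rw [EE_sym hE p.len x.2 x.1]
      rw [hsum]
      exact p3

end Vale.Agent.P050.H648.Sub
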