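import Vale.Agent.P050.H648.Sub.Ker
import Vale.Agent.P050.H936.Spec
import Vale.Agent.P050.H869.GV
import Vale.Agent.P050.H23.GI

/-!
# P050, [SUB], row [S2]: `KerStmt`
-/

set_option autoImplicit false

namespace Vale.Agent.P050.H648.Sub

open Finset Vale.Agent.P050.Cart Vale.Agent.P050.M18 Vale.Agent.P050.H546

theorem wt_eq {U : Type} [Fintype U] [DecidableEq U] (A : U → U → ℝ) (i j c : ℕ) (x y : U) :
    H936.wt A i j c x y = Wk A (i + 1) (j + 1) c x y := by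
  unfold H936.wt Wk
  rw [Fintype.sum_prod_type, Nat.add_comm c 1]

/-- **[S2]** -/
theorem kerStmt : H936.KerStmt := by
  intro U _ _ A Q hE hA hQA i j c
  obtain ⟨h1, h2⟩ := kernel hE H869.gval hA hQA (i + 1) (j + 1) c
  have e : i + 1 + 2 + (j + 1) = i + j + 4 := by omega
  rw [e] at h1 h2
  have h3 : hh Q 2 = h2Q Q := H23.hh_two hE
  rw [h3] at h2
  simp only [wt_eq]
  refine ⟨h1, ?_⟩
  push_cast at h2
  have e1 : ((i : ℝ) + j + 4) * hQ Q - (i + j + 3) * aQ Q - hh Q (i + j + 4) +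
      c * (2 * hQ Q - aQ Q - h2Q Q) =
      ((i : ℝ) + 1 + 2 + (j + 1)) * hQ Q - ((i : ℝ) + 1 + 1 + (j + 1)) * aQ Q -
        hh Q (i + j + 4) + c * (2 * hQ Q - aQ Q - h2Q Q) := by ring
  rw [e1]
  exact h2

end Vale.Agent.P050.H648.Sub
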